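import Vale.Agent.P280.T.Defs

/-!
The ideal of the minors of the matrices `(D_i h_j)` is stable under the fields.
-/

namespace Vale.Agent.P280.H93

open Matrix Vale.Agent.P280.T

set_option linter.unusedSectionVars false

section general
variable {K : Type*} [CommRing K] {R : Type*} [CommRing R] [Algebra K R]

/-- Leibniz rule for a finite product. -/
theorem derivation_prod (E : Derivation K R R) {ι : Type*} [DecidableEq ι] (s : Finset ι)
    (f : ι → R) :
    E (∏ i ∈ s, f i) = ∑ j ∈ s, ∏ i ∈ s, Function.update f j (E (f j)) i := by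
  induction s using Finset.induction_on with
  | empty => simp
  | insert a s ha ih =>
    rw [Finset.prod_insert ha, Derivation.leibniz, ih, Finset.sum_insert ha,
      Finset.prod_insert ha, Function.update_self, smul_eq_mul, smul_eq_mul, add_comm]
    refine congrArg₂ (· + ·) ?_ ?_
    · rw [mul_comm]
      refine congrArg (fun t => E (f a) * t) (Finset.prod_congr rfl fun i hi => ?_)
      rw [Function.update_of_ne]
      rintro rfl
      exact ha hi
    · rw [Finset.mul_sum]
      refine Finset.sum_congr rfl fun j hj => ?_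
      rw [Finset.prod_insert ha, Function.update_of_ne]
      rintro rfl
      exact ha hj

variable {n : Type*} [Fintype n] [DecidableEq n]

/-- Leibniz rule for the determinant, by columns. -/
theorem derivation_det (E : Derivation K R R) (M : Matrix n n R) :
    E M.det = ∑ j, (M.updateCol j (fun i => E (M i j))).det := by
  rw [Matrix.det_apply, map_sum]
  simp_rw [Matrix.det_apply]
  rw [Finset.sum_comm]
  refine Finset.sum_congr rfl fun σ _ => ?_
  rw [← Finset.smul_sum, Units.smul_def, Units.smul_def, map_zsmul, derivation_prod]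
  refine congrArg _ (Finset.sum_congr rfl fun j _ => Finset.prod_congr rfl fun i _ => ?_)
  rw [Matrix.updateCol_apply]
  by_cases h : i = j
  · subst h
    simp
  · rw [Function.update_of_ne h, if_neg h]

/-- Replacing the columns one after the other, or the rows, gives the same sum. -/
theorem sum_updateCol (M N : Matrix n n R) :
    ∑ j, (M.updateCol j (fun i => N i j)).det = ∑ i, (M.updateRow i (fun j => N i j)).det := by
  have h1 : ∀ j, (M.updateCol j (fun i => N i j)).det = ∑ i, M.adjugate j i * N i j := by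
    intro j
    rw [← Matrix.cramer_apply, Matrix.cramer_eq_adjugate_mulVec]
    rfl
  have h2 : ∀ i, (M.updateRow i (fun j => N i j)).det = ∑ j, M.adjugate j i * N i j := by
    intro i
    rw [← Matrix.cramer_transpose_apply, Matrix.cramer_eq_adjugate_mulVec,
      ← Matrix.adjugate_transpose]
    rfl
  simp_rw [h1, h2]
  exact Finset.sum_comm

/-- The matrix `(D_i h_j)`. -/
def dmat (D : n → Derivation K R R) (h : n → R) : Matrix n n R := Matrix.of fun i j => D i (h j)

theorem dmat_apply (D : n → Derivation K R R) (h : n → R) (i j : n) : dmat D h i j = D i (h j) :=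
  rfl

theorem dmat_update_right (D : n → Derivation K R R) (h : n → R) (j : n) (x : R) :
    (dmat D h).updateCol j (fun i => D i x) = dmat D (Function.update h j x) := by
  ext i l
  rw [Matrix.updateCol_apply, dmat_apply, dmat_apply]
  by_cases hl : l = j
  · subst hl
    simp
  · rw [Function.update_of_ne hl, if_neg hl]

theorem dmat_update_left (D : n → Derivation K R R) (h : n → R) (i : n) (E : Derivation K R R) :
    (dmat D h).updateRow i (fun j => E (h j)) = dmat (Function.update D i E) h := by
  ext l j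
  rw [Matrix.updateRow_apply, dmat_apply, dmat_apply]
  by_cases hl : l = i
  · subst hl
    simp
  · rw [Function.update_of_ne hl, if_neg hl]

/-- The derivative of a minor is a sum of minors. -/
theorem derivation_minor (E : Derivation K R R) (D : n → Derivation K R R) (h : n → R) :
    E (dmat D h).det = (∑ i, (dmat (Function.update D i ⁅E, D i⁆) h).det) +
      ∑ j, (dmat D (Function.update h j (E (h j)))).det := by
  have h1 : ∀ j, ((dmat D h).updateCol j (fun i => E (dmat D h i j))).det =
      ((dmat D h).updateCol j (fun i => ⁅E, D i⁆ (h j))).det +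
      (dmat D (Function.update h j (E (h j)))).det := by
    intro j
    rw [← dmat_update_right, ← Matrix.det_updateCol_add]
    refine congrArg (fun c => ((dmat D h).updateCol j c).det) ?_
    funext i
    rw [Pi.add_apply, dmat_apply, Derivation.commutator_apply]
    ring
  rw [derivation_det]
  simp_rw [h1]
  rw [Finset.sum_add_distrib]
  refine congrArg (· + _) ?_
  have h2 := sum_updateCol (dmat D h) (Matrix.of fun i j => ⁅E, D i⁆ (h j))
  simp only [Matrix.of_apply] at h2
  rw [h2]
  refine Finset.sum_congr rfl fun i _ => ?_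
  rw [dmat_update_left]

/-- The radical of a differential ideal is differential (characteristic zero). -/
theorem radical_stable {R : Type*} [CommRing R] [Algebra ℂ R] (J : Ideal R)
    (D : Derivation ℂ R R) (hD : ∀ r ∈ J, D r ∈ J) {u : R} (hu : u ∈ J.radical) :
    D u ∈ J.radical := by
  obtain ⟨n, hn⟩ := hu
  have key : ∀ k : ℕ, k ≤ n → u ^ (n - k) * (D u) ^ (2 * k) ∈ J := by
    intro k
    induction k with
    | zero =>
      intro _
      simpa using hn
    | succ k ih =>
      intro hk
      obtain ⟨l, hl⟩ : ∃ l, n - k = l + 1 := ⟨n - k - 1, by omega⟩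
      have h0 := ih (by omega)
      rw [hl] at h0
      have h1 := J.mul_mem_left (D u) (hD _ h0)
      have h2 : D u * D (u ^ (l + 1) * D u ^ (2 * k)) =
          ((l : R) + 1) * (u ^ l * (D u) ^ (2 * (k + 1))) +
          (2 * k : R) * D (D u) * (u ^ (l + 1) * D u ^ (2 * k)) := by
        rw [Derivation.leibniz, Derivation.leibniz_pow, Derivation.leibniz_pow]
        simp only [smul_eq_mul, nsmul_eq_mul, Nat.add_sub_cancel]
        rcases Nat.eq_zero_or_pos k with rfl | hk0
        · simp
          ring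
        · obtain ⟨m, rfl⟩ : ∃ m, k = m + 1 := ⟨k - 1, by omega⟩
          have : 2 * (m + 1) - 1 = 2 * m + 1 := by omega
          rw [this]
          push_cast
          ring
      rw [h2] at h1
      have h3 : ((l : R) + 1) * (u ^ l * (D u) ^ (2 * (k + 1))) ∈ J :=
        (Ideal.add_mem_iff_left J (J.mul_mem_left _ h0)).1 h1
      have h4 : algebraMap ℂ R (((l : ℂ) + 1)⁻¹) * ((l : R) + 1) = 1 := by
        have h5 : ((l : R) + 1) = algebraMap ℂ R ((l : ℂ) + 1) := by
          rw [map_add, map_natCast, map_one]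
        rw [h5, ← map_mul, inv_mul_cancel₀ (Nat.cast_add_one_ne_zero l), map_one]
      have h5 := J.mul_mem_left (algebraMap ℂ R (((l : ℂ) + 1)⁻¹)) h3
      rw [← mul_assoc, h4, one_mul] at h5
      have h6 : n - (k + 1) = l := by omega
      rw [h6]
      exact h5
  have h := key n le_rfl
  rw [Nat.sub_self, pow_zero, one_mul] at h
  exact ⟨_, h⟩

/-- A point of `V(J)` is killed by `D u` for `u` in the radical. -/
theorem eq_zero_of_radical {R : Type*} [CommRing R] [Algebra ℂ R] (J : Ideal R)
    (D : Derivation ℂ R R) (hD : ∀ r ∈ J, D r ∈ J) (p : R →ₐ[ℂ] ℂ) (hp : ∀ r ∈ J, p r = 0)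
    {u : R} (hu : u ∈ J.radical) : p (D u) = 0 := by
  obtain ⟨n, hn⟩ := radical_stable J D hD hu
  have := hp _ hn
  rw [map_pow] at this
  rcases Nat.eq_zero_or_pos n with rfl | h
  · simp at this
  · exact (pow_eq_zero_iff h.ne').1 this

end general

section graded
variable {M : Type} [AddCommGroup M] [DecidableEq M]
variable {R : Type} [CommRing R] [Algebra ℂ R]

/-- `D` is a `T`-homogeneous field of weight `-χ`. -/
def IsHField (𝒜 : ℕ × M → Submodule ℂ R) (χ : M) (D : Derivation ℂ R R) : Prop :=
  ∀ (d : ℕ) (m : M), ∀ h ∈ 𝒜 (d, m), D h ∈ 𝒜 (d, m - χ)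

theorem IsHField.isField {𝒜 : ℕ × M → Submodule ℂ R} {χ : M} {D : Derivation ℂ R R}
    (hD : IsHField 𝒜 χ D) : IsField 𝒜 D := fun d m h hh =>
  Submodule.mem_iSup_of_mem (m - χ) (hD d m h hh)

theorem IsHField.lie {𝒜 : ℕ × M → Submodule ℂ R} {χ χ' : M} {D D' : Derivation ℂ R R}
    (hD : IsHField 𝒜 χ D) (hD' : IsHField 𝒜 χ' D') : IsHField 𝒜 (χ + χ') ⁅D, D'⁆ := by
  intro d m h hh
  rw [Derivation.commutator_apply]
  refine Submodule.sub_mem _ ?_ ?_
  · have := hD d _ _ (hD' d m h hh)
    have h1 : m - (χ + χ') = m - χ' - χ := by abel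
    rw [h1]
    exact this
  · have := hD' d _ _ (hD d m h hh)
    have h1 : m - (χ + χ') = m - χ - χ' := by abel
    rw [h1]
    exact this

theorem IsField.add {𝒜 : ℕ × M → Submodule ℂ R} {D D' : Derivation ℂ R R}
    (hD : IsField 𝒜 D) (hD' : IsField 𝒜 D') : IsField 𝒜 (D + D') := fun d m h hh => by
  rw [Derivation.add_apply]
  exact Submodule.add_mem _ (hD d m h hh) (hD' d m h hh)

theorem IsField.smul {𝒜 : ℕ × M → Submodule ℂ R} {D : Derivation ℂ R R} (c : ℂ)
    (hD : IsField 𝒜 D) : IsField 𝒜 (c • D) := fun d m h hh => by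
  rw [Derivation.smul_apply]
  exact Submodule.smul_mem _ _ (hD d m h hh)

/-- The ideal of the `k × k` minors. -/
def minorIdeal (𝒜 : ℕ × M → Submodule ℂ R) (k : ℕ) : Ideal R :=
  Ideal.span {r | ∃ (χ : Fin k → M) (D : Fin k → Derivation ℂ R R) (h : Fin k → R),
    (∀ i, IsHField 𝒜 (χ i) (D i)) ∧ (∀ j, SetLike.IsHomogeneousElem 𝒜 (h j)) ∧
    r = (dmat D h).det}

variable {𝒜 : ℕ × M → Submodule ℂ R}

theorem minor_mem {k : ℕ} {χ : Fin k → M} {D : Fin k → Derivation ℂ R R} {h : Fin k → R}
    (hD : ∀ i, IsHField 𝒜 (χ i) (D i)) (hh : ∀ j, SetLike.IsHomogeneousElem 𝒜 (h j)) :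
    (dmat D h).det ∈ minorIdeal 𝒜 k :=
  Ideal.subset_span ⟨χ, D, h, hD, hh, rfl⟩

theorem minorIdeal_isHomogeneous [GradedAlgebra 𝒜] (k : ℕ) :
    (minorIdeal 𝒜 k).IsHomogeneous 𝒜 := by
  refine Ideal.homogeneous_span 𝒜 _ ?_
  rintro r ⟨χ, D, h, hD, hh, rfl⟩
  choose i hi using hh
  refine ⟨(∑ j, (i j).1, ∑ j, (i j).2 - ∑ l, χ l), ?_⟩
  rw [Matrix.det_apply]
  refine Submodule.sum_mem _ fun σ _ => ?_
  rw [Units.smul_def]
  refine zsmul_mem ?_ _
  have h1 : ∏ j, dmat D h (σ j) j ∈ 𝒜 (∑ j, ((i j).1, (i j).2 - χ (σ j))) := by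
    refine SetLike.prod_mem_graded 𝒜 _ _ fun j _ => ?_
    exact hD (σ j) (i j).1 (i j).2 (h j) (hi j)
  have h2 : ∑ j, ((i j).1, (i j).2 - χ (σ j)) =
      (∑ j, (i j).1, ∑ j, (i j).2 - ∑ l, χ l) := by
    refine Prod.ext ?_ ?_
    · rw [Prod.fst_sum]
    · rw [Prod.snd_sum]
      simp only
      rw [Finset.sum_sub_distrib, Equiv.sum_comp σ χ]
  rw [h2] at h1
  exact h1

theorem minorIdeal_stable {k : ℕ} {χ : M} {E : Derivation ℂ R R} (hE : IsHField 𝒜 χ E) {r : R}
    (hr : r ∈ minorIdeal 𝒜 k) : E r ∈ minorIdeal 𝒜 k := by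
  refine Submodule.span_induction (p := fun r _ => E r ∈ minorIdeal 𝒜 k) ?_ ?_ ?_ ?_ hr
  · rintro r ⟨χ', D, h, hD, hh, rfl⟩
    rw [derivation_minor]
    refine Ideal.add_mem _ (Ideal.sum_mem _ fun i _ => ?_) (Ideal.sum_mem _ fun j _ => ?_)
    · refine minor_mem (χ := Function.update χ' i (χ + χ' i)) ?_ hh
      intro l
      by_cases hl : l = i
      · subst hl
        rw [Function.update_self, Function.update_self]
        exact hE.lie (hD l)
      · rw [Function.update_of_ne hl, Function.update_of_ne hl]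
        exact hD l
    · refine minor_mem hD ?_
      intro l
      by_cases hl : l = j
      · subst hl
        rw [Function.update_self]
        obtain ⟨i, hi⟩ := hh l
        exact ⟨(i.1, i.2 - χ), hE i.1 i.2 _ hi⟩
      · rw [Function.update_of_ne hl]
        exact hh l
  · rw [map_zero]
    exact Ideal.zero_mem _
  · intro x y _ _ hx hy
    rw [map_add]
    exact Ideal.add_mem _ hx hy
  · intro a x hx hxE
    rw [smul_eq_mul, Derivation.leibniz, smul_eq_mul, smul_eq_mul]
    exact Ideal.add_mem _ (Ideal.mul_mem_left _ _ hxE) (Ideal.mul_mem_right _ _ hx)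

end graded

end Vale.Agent.P280.H93
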