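import Vale.Agent.P280.T.Tools
import Vale.Agent.P280.H93.Minors

/-!
The values of the fields at a point, the minors at a point, and the homogeneous components of a
field.
-/

set_option linter.unusedSectionVars false

namespace Vale.Agent.P280.H93

open Matrix Vale.Agent.P280.T

section linear

/-- A basis out of a spanning set, indexed by `Fin N`. -/
theorem exists_fin_family {V : Type*} [AddCommGroup V] [Module ℂ V] (T : Submodule ℂ V)
    [FiniteDimensional ℂ T] (S : Set V) (hS : Submodule.span ℂ S = T) {N : ℕ}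
    (hN : Module.finrank ℂ T = N) :
    ∃ b : Fin N → V, (∀ i, b i ∈ S) ∧ LinearIndependent ℂ b := by
  obtain ⟨b, hb, hspan, hli⟩ := exists_linearIndependent ℂ S
  have e : Submodule.span ℂ (Set.range (Subtype.val : b → V)) = T := by
    rw [Subtype.range_coe, hspan, hS]
  let B : Module.Basis b ℂ (Submodule.span ℂ (Set.range (Subtype.val : b → V))) :=
    Module.Basis.span hli
  have hfd : FiniteDimensional ℂ (Submodule.span ℂ (Set.range (Subtype.val : b → V))) := by
    rw [e]
    infer_instance
  have hfin : Finite b := Module.Finite.finite_basis B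
  have hcard : Nat.card b = N := by
    rw [← Module.finrank_eq_nat_card_basis B, e, hN]
  let ε : b ≃ Fin N := Finite.equivFinOfCardEq hcard
  refine ⟨fun i => ((ε.symm i : b) : V), fun i => hb (ε.symm i).2, ?_⟩
  exact hli.comp _ ε.symm.injective

/-- Independent functionals have a nonzero determinant on a spanning set. -/
theorem exists_det_ne {R : Type*} [AddCommGroup R] [Module ℂ R] {N : ℕ}
    (v : Fin N → (R →ₗ[ℂ] ℂ)) (hv : LinearIndependent ℂ v) (H : Set R)
    (hH : Submodule.span ℂ H = ⊤) :
    ∃ h : Fin N → R, (∀ j, h j ∈ H) ∧ (Matrix.of fun i j => v i (h j)).det ≠ 0 := by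
  let Φ : R →ₗ[ℂ] (Fin N → ℂ) := LinearMap.pi v
  have hr : LinearMap.range Φ = ⊤ := by
    by_contra hne
    obtain ⟨f, hf0, hf⟩ := Submodule.exists_le_ker_of_lt_top _ (lt_top_iff_ne_top.2 hne)
    apply hf0
    have h1 : ∀ x : Fin N → ℂ, f x = ∑ i, x i * f (Pi.single i 1) := by
      intro x
      conv_lhs => rw [pi_eq_sum_univ' x]
      rw [map_sum]
      refine Finset.sum_congr rfl fun i _ => ?_
      rw [map_smul, smul_eq_mul]
    have h2 : ∑ i, f (Pi.single i 1) • v i = 0 := by
      apply LinearMap.ext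
      intro r
      have h3 := hf (LinearMap.mem_range_self Φ r)
      rw [LinearMap.mem_ker, h1] at h3
      rw [LinearMap.sum_apply, LinearMap.zero_apply, ← h3]
      refine Finset.sum_congr rfl fun i _ => ?_
      rw [LinearMap.smul_apply, smul_eq_mul, mul_comm]
      rfl
    have h4 := Fintype.linearIndependent_iff.1 hv _ h2
    apply LinearMap.ext
    intro x
    rw [h1, LinearMap.zero_apply]
    refine Finset.sum_eq_zero fun i _ => ?_
    rw [h4 i, mul_zero]
  have hs : Submodule.span ℂ (Φ '' H) = ⊤ := by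
    rw [Submodule.span_image, hH, Submodule.map_top, hr]
  obtain ⟨b, hb, hli⟩ := exists_fin_family (⊤ : Submodule ℂ (Fin N → ℂ)) (Φ '' H) hs (N := N)
    (by rw [finrank_top, Module.finrank_fin_fun])
  choose h hh hbh using hb
  refine ⟨h, hh, ?_⟩
  have h5 : IsUnit (Matrix.of fun j i => v i (h j) : Matrix (Fin N) (Fin N) ℂ) := by
    rw [← Matrix.linearIndependent_rows_iff_isUnit]
    have h6 : (Matrix.of fun j i => v i (h j) : Matrix (Fin N) (Fin N) ℂ).row = b := by
      funext j
      rw [← hbh j]
      rfl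
    rw [h6]
    exact hli
  rw [Matrix.isUnit_iff_isUnit_det, isUnit_iff_ne_zero] at h5
  rw [← Matrix.det_transpose]
  exact h5

end linear

section tangent
variable {M : Type} [AddCommGroup M] [DecidableEq M]
variable {R : Type} [CommRing R] [Algebra ℂ R]

/-- The tangent space of `Spec R` at the point `p`. -/
def tangentSpace (p : R →ₐ[ℂ] ℂ) : Submodule ℂ (R →ₗ[ℂ] ℂ) where
  carrier := {v | IsTangent p v}
  add_mem' := by
    intro v w hv hw a b
    rw [LinearMap.add_apply, LinearMap.add_apply, LinearMap.add_apply, hv a b, hw a b]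
    ring
  zero_mem' := by
    intro a b
    simp
  smul_mem' := by
    intro c v hv a b
    rw [LinearMap.smul_apply, LinearMap.smul_apply, LinearMap.smul_apply, hv a b]
    simp only [smul_eq_mul]
    ring

theorem mem_tangentSpace {p : R →ₐ[ℂ] ℂ} {v : R →ₗ[ℂ] ℂ} :
    v ∈ tangentSpace p ↔ IsTangent p v := Iff.rfl

/-- The value of a derivation at a point. -/
def valAt (p : R →ₐ[ℂ] ℂ) (D : Derivation ℂ R R) : R →ₗ[ℂ] ℂ := p.toLinearMap.comp D.toLinearMap

theorem valAt_apply (p : R →ₐ[ℂ] ℂ) (D : Derivation ℂ R R) (h : R) : valAt p D h = p (D h) := rfl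

theorem isTangent_valAt (p : R →ₐ[ℂ] ℂ) (D : Derivation ℂ R R) : IsTangent p (valAt p D) := by
  intro a b
  rw [valAt_apply, valAt_apply, valAt_apply, Derivation.leibniz, map_add, smul_eq_mul,
    smul_eq_mul, map_mul, map_mul]

theorem span_homogeneous (𝒜 : ℕ × M → Submodule ℂ R) [GradedAlgebra 𝒜] :
    Submodule.span ℂ {h : R | SetLike.IsHomogeneousElem 𝒜 h} = ⊤ := by
  rw [eq_top_iff]
  intro x _
  induction x using DirectSum.Decomposition.inductionOn 𝒜 with
  | zero => exact Submodule.zero_mem _
  | homogeneous a => exact Submodule.subset_span ⟨_, a.2⟩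
  | add a b ha hb => exact Submodule.add_mem _ (ha trivial) (hb trivial)

variable {𝒜 : ℕ × M → Submodule ℂ R}

/-- (B1) If the fields span the tangent space at `p`, some minor does not vanish at `p`. -/
theorem exists_minor [GradedAlgebra 𝒜] {p : R →ₐ[ℂ] ℂ} {N : ℕ}
    (hfin : FiniteDimensional ℂ (tangentSpace p))
    (hN : Module.finrank ℂ (tangentSpace p) = N)
    (hspan : ∀ v, IsTangent p v → v ∈ Submodule.span ℂ
      {w : R →ₗ[ℂ] ℂ | ∃ (χ : M) (D : Derivation ℂ R R), IsHField 𝒜 χ D ∧ ∀ h, p (D h) = w h}) :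
    ∃ r ∈ minorIdeal 𝒜 N, p r ≠ 0 := by
  have h1 : Submodule.span ℂ {w : R →ₗ[ℂ] ℂ | ∃ (χ : M) (D : Derivation ℂ R R),
      IsHField 𝒜 χ D ∧ ∀ h, p (D h) = w h} = tangentSpace p := by
    refine le_antisymm (Submodule.span_le.2 ?_) (fun v hv => hspan v hv)
    rintro w ⟨χ, D, -, hw⟩
    have h2 : w = valAt p D := LinearMap.ext fun h => (hw h).symm
    rw [h2]
    exact isTangent_valAt p D
  obtain ⟨b, hb, hli⟩ := exists_fin_family (tangentSpace p) _ h1 hN
  choose χ D hD hw using hb
  obtain ⟨h, hh, hdet⟩ := exists_det_ne b hli _ (span_homogeneous 𝒜)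
  refine ⟨(dmat D h).det, minor_mem hD hh, ?_⟩
  rw [AlgHom.map_det]
  have h2 : p.mapMatrix (dmat D h) = Matrix.of fun i j => b i (h j) := by
    ext i j
    rw [AlgHom.mapMatrix_apply, Matrix.map_apply, dmat_apply, Matrix.of_apply, hw]
  rw [h2]
  exact hdet

/-- (B2) If some minor does not vanish at `p`, the fields span the tangent space at `p`. -/
theorem fields_of_minor {p : R →ₐ[ℂ] ℂ} {N : ℕ}
    (hfin : FiniteDimensional ℂ (tangentSpace p))
    (hN : Module.finrank ℂ (tangentSpace p) ≤ N) {r : R} (hr : r ∈ minorIdeal 𝒜 N)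
    (hpr : p r ≠ 0) {v : R →ₗ[ℂ] ℂ} (hv : IsTangent p v) :
    ∃ D : Derivation ℂ R R, IsField 𝒜 D ∧ ∀ h, p (D h) = v h := by
  -- some generator of the ideal does not vanish
  obtain ⟨χ, D, h, hD, hh, hne⟩ : ∃ (χ : Fin N → M) (D : Fin N → Derivation ℂ R R)
      (h : Fin N → R), (∀ i, IsHField 𝒜 (χ i) (D i)) ∧
      (∀ j, SetLike.IsHomogeneousElem 𝒜 (h j)) ∧ p (dmat D h).det ≠ 0 := by
    by_contra hcon
    push Not at hcon
    apply hpr
    refine Submodule.span_induction (p := fun r _ => p r = 0) ?_ ?_ ?_ ?_ hr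
    · rintro r ⟨χ, D, h, hD, hh, rfl⟩
      exact hcon χ D h hD hh
    · exact map_zero p
    · intro x y _ _ hx hy
      rw [map_add, hx, hy, add_zero]
    · intro a x _ hx
      rw [smul_eq_mul, map_mul, hx, mul_zero]
  -- the values are independent
  have hli : LinearIndependent ℂ (fun i => (⟨valAt p (D i), isTangent_valAt p (D i)⟩ :
      tangentSpace p)) := by
    rw [Fintype.linearIndependent_iff]
    intro c hc
    have h1 : ∀ j, ∑ i, c i * p (D i (h j)) = 0 := by
      intro j
      have h2 := congrArg (fun w : tangentSpace p => (w : R →ₗ[ℂ] ℂ) (h j)) hc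
      simpa [Submodule.coe_sum, LinearMap.sum_apply, valAt_apply] using h2
    have h3 : Matrix.vecMul c (p.mapMatrix (dmat D h)) = 0 := by
      funext j
      exact h1 j
    have h4 : (p.mapMatrix (dmat D h)).det ≠ 0 := by
      rw [← AlgHom.map_det]
      exact hne
    have h5 := Matrix.eq_zero_of_vecMul_eq_zero h4 h3
    exact fun i => congrFun h5 i
  have hcard := hli.fintype_card_le_finrank
  rw [Fintype.card_fin] at hcard
  have htop := hli.span_eq_top_of_card_eq_finrank' (by
    rw [Fintype.card_fin]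
    exact le_antisymm hcard hN)
  have hmem : (⟨v, hv⟩ : tangentSpace p) ∈ Submodule.span ℂ (Set.range
      (fun i => (⟨valAt p (D i), isTangent_valAt p (D i)⟩ : tangentSpace p))) := by
    rw [htop]
    trivial
  obtain ⟨c, hc⟩ := (Submodule.mem_span_range_iff_exists_fun ℂ).1 hmem
  have h6 : ∀ x, (∑ i, c i • D i) x = ∑ i, c i • D i x := by
    intro x
    have h8 := congrFun (map_sum (Derivation.coeFnAddMonoidHom (R := ℂ) (A := R) (M := R))
      (fun i => c i • D i) Finset.univ) x
    rw [Finset.sum_apply] at h8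
    exact h8
  refine ⟨∑ i, c i • D i, ?_, ?_⟩
  · intro d m x hx
    rw [h6]
    exact Submodule.sum_mem _ fun i _ => Submodule.smul_mem _ _ ((hD i).isField d m x hx)
  · intro x
    have h7 := congrArg (fun w : tangentSpace p => (w : R →ₗ[ℂ] ℂ) x) hc
    rw [h6, map_sum]
    simpa [Submodule.coe_sum, LinearMap.sum_apply, valAt_apply] using h7

/-- (E) The component of weight `-χ` of a field. -/
theorem exists_hfield [GradedAlgebra 𝒜] {x : R →ₐ[ℂ] ℂ} {ν χ : M} (hx : IsFixed 𝒜 x ν)
    {v : R →ₗ[ℂ] ℂ} (hv : HasWeight 𝒜 ν χ v) (D : Derivation ℂ R R) (hD : IsField 𝒜 D)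
    (hDv : ∀ h, x (D h) = v h) :
    ∃ D' : Derivation ℂ R R, IsHField 𝒜 χ D' ∧ ∀ h, x (D' h) = v h := by
  let F : (i : ℕ × M) → 𝒜 i →ₗ[ℂ] R := fun i =>
    ((GradedAlgebra.proj 𝒜 (i.1, i.2 - χ)).comp D.toLinearMap).comp (𝒜 i).subtype
  let G : R →ₗ[ℂ] R := (DirectSum.toModule ℂ (ℕ × M) R F).comp
    (DirectSum.decomposeLinearEquiv 𝒜).toLinearMap
  have hG : ∀ i, ∀ a ∈ 𝒜 i, G a = GradedAlgebra.proj 𝒜 (i.1, i.2 - χ) (D a) := by
    intro i a ha
    change DirectSum.toModule ℂ (ℕ × M) R F (DirectSum.decompose 𝒜 a) = _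
    rw [DirectSum.decompose_of_mem _ ha]
    have h8 := DirectSum.toModule_lof (M := fun i => 𝒜 i) (φ := F) ℂ i (⟨a, ha⟩ : 𝒜 i)
    exact h8
  have hproj : ∀ i x, GradedAlgebra.proj 𝒜 i x ∈ 𝒜 i := fun i x => by
    rw [GradedAlgebra.proj_apply]
    exact SetLike.coe_mem _
  have hleib : ∀ a b : R, G (a * b) = a * G b + b * G a := by
    intro a b
    induction a using DirectSum.Decomposition.inductionOn 𝒜 with
    | zero => simp
    | add a a' ha ha' =>
      rw [add_mul, map_add, map_add, ha, ha']
      ring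
    | @homogeneous i a =>
      induction b using DirectSum.Decomposition.inductionOn 𝒜 with
      | zero => simp
      | add b b' hb hb' =>
        rw [mul_add, map_add, map_add, hb, hb']
        ring
      | @homogeneous j b =>
        have hab : (a : R) * (b : R) ∈ 𝒜 (i + j) := SetLike.mul_mem_graded a.2 b.2
        rw [hG _ _ hab, hG _ _ a.2, hG _ _ b.2, Derivation.leibniz, map_add, smul_eq_mul,
          smul_eq_mul]
        refine congrArg₂ (· + ·) ?_ ?_
        · have h1 : (((i + j).1, (i + j).2 - χ) : ℕ × M) = i + (j.1, j.2 - χ) := by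
            refine Prod.ext rfl ?_
            change i.2 + j.2 - χ = i.2 + (j.2 - χ)
            abel
          rw [GradedAlgebra.proj_apply, GradedAlgebra.proj_apply, h1]
          exact DirectSum.coe_decompose_mul_add_of_left_mem 𝒜 a.2
        · have h1 : (((i + j).1, (i + j).2 - χ) : ℕ × M) = j + (i.1, i.2 - χ) := by
            refine Prod.ext (Nat.add_comm _ _) ?_
            change i.2 + j.2 - χ = j.2 + (i.2 - χ)
            abel
          rw [GradedAlgebra.proj_apply, GradedAlgebra.proj_apply, h1]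
          exact DirectSum.coe_decompose_mul_add_of_left_mem 𝒜 b.2
  have hfull : ∀ (d : ℕ) (m : M), ∀ h ∈ 𝒜 (d, m),
      x (GradedAlgebra.proj 𝒜 (d, m - χ) (D h)) = v h := by
    intro d m h hh
    by_cases hm : m = d • ν + χ
    · -- only the component of `D h` of weight `d ν` counts
      rw [← hDv h]
      have hmem := hD d m h hh
      have key : ∀ y ∈ ⨆ m' : M, 𝒜 (d, m'), x (GradedAlgebra.proj 𝒜 (d, m - χ) y) = x y := by
        intro y hy
        refine Submodule.iSup_induction (fun m' : M => 𝒜 (d, m'))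
          (motive := fun y => x (GradedAlgebra.proj 𝒜 (d, m - χ) y) = x y) hy ?_ ?_ ?_
        · intro m' z hz
          by_cases hm' : m' = m - χ
          · subst hm'
            rw [GradedAlgebra.proj_apply, DirectSum.decompose_of_mem_same _ hz]
          · rw [GradedAlgebra.proj_apply, DirectSum.decompose_of_mem_ne _ hz (by
              intro h9
              exact hm' (Prod.ext_iff.1 h9).2), map_zero]
            by_contra h9
            have h10 := hx d m' z hz (Ne.symm h9)
            apply hm'
            rw [h10, hm]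
            abel
        · rw [map_zero]
        · intro y z hy hz
          rw [map_add, map_add, map_add, hy, hz]
      exact key _ hmem
    · have h1 : v h = 0 := by
        by_contra h0
        exact hm (hv d m h hh h0)
      rw [h1]
      by_contra h0
      have h2 := hx d (m - χ) _ (hproj _ _) h0
      apply hm
      rw [← h2]
      abel
  refine ⟨{ toLinearMap := G
            map_one_eq_zero' := ?_
            leibniz' := ?_ }, ?_, ?_⟩
  · have := hleib 1 1
    rw [mul_one, one_mul] at this
    simpa using this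
  · intro a b
    exact hleib a b
  · intro d m h hh
    change G h ∈ _
    rw [hG _ _ hh]
    exact hproj _ _
  · intro h
    change x (G h) = v h
    have h1 : x.toLinearMap.comp G = v := by
      apply linearMap_ext_graded 𝒜
      rintro ⟨d, m⟩ a ha
      rw [LinearMap.comp_apply, hG _ _ ha]
      exact hfull d m a ha
    exact LinearMap.congr_fun h1 h

end tangent

end Vale.Agent.P280.H93
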