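import Vale.Agent.P280.H93.Dim
import Vale.Agent.P280.H93.Tangent
import Vale.Agent.P280.H127.Wts

/-!
The tangent spaces of the cone at its non-vertices have the same dimension.
-/

namespace Vale.Agent.P280.H93

open Vale.Agent.P280.T

variable {M : Type} [AddCommGroup M] [DecidableEq M]
variable {R : Type} [CommRing R] [Algebra ℂ R]

/-- The tangent spaces at the non-vertices have the same dimension. -/
theorem exists_dim {𝒜 : ℕ × M → Submodule ℂ R} [GradedAlgebra 𝒜] (hX : IsTorusManifold 𝒜) :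
    ∃ N : ℕ, ∀ p : R →ₐ[ℂ] ℂ, ¬ IsVertex 𝒜 p →
      FiniteDimensional ℂ (tangentSpace p) ∧ Module.finrank ℂ (tangentSpace p) = N := by
  have h1 := hX.domain
  have h2 := hX.finiteType
  obtain ⟨N, hN⟩ := exists_height ℂ R
  refine ⟨N, fun p hp => ?_⟩
  obtain ⟨h3, h4⟩ := H127.finrank_tangent hX hp (S := tangentSpace p) (fun v => mem_tangentSpace)
  have hmax : (RingHom.ker p).IsMaximal := RingHom.ker_isMaximal_of_surjective p
    (fun c => ⟨algebraMap ℂ R c, p.commutes c⟩)
  rw [hN _ hmax] at h4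
  exact ⟨h3, by exact_mod_cast h4⟩

/-- Any two non-vertices have tangent spaces of the same dimension. -/
theorem finrank_eq {𝒜 : ℕ × M → Submodule ℂ R} [GradedAlgebra 𝒜] (hX : IsTorusManifold 𝒜)
    {p q : R →ₐ[ℂ] ℂ} (hp : ¬ IsVertex 𝒜 p) (hq : ¬ IsVertex 𝒜 q) :
    Module.finrank ℂ (tangentSpace p) = Module.finrank ℂ (tangentSpace q) := by
  obtain ⟨N, hN⟩ := exists_dim hX
  rw [(hN p hp).2, (hN q hq).2]

end Vale.Agent.P280.H93
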