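import Mathlib

/-!
All maximal ideals of a finitely generated domain over a field have the same height.
-/

namespace Vale.Agent.P280.H93

open MvPolynomial

/-- Maximal ideals of a polynomial ring. -/
theorem height_mvPolynomial (k : Type*) [Field k] (n : ℕ) :
    ∀ P : Ideal (MvPolynomial (Fin n) k), P.IsMaximal → P.height = n := by
  induction n with
  | zero =>
    intro P hP
    have e : MvPolynomial (Fin 0) k ≃+* k := (MvPolynomial.isEmptyAlgEquiv k (Fin 0)).toRingEquiv
    have h1 : P = ⊥ := by
      have h2 : IsField (MvPolynomial (Fin 0) k) := e.toMulEquiv.isField (Field.toIsField k)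
      let _ := h2.toField
      rcases Ideal.eq_bot_or_top P with h | h
      · exact h
      · exact absurd h hP.ne_top
    rw [h1]
    simp
  | succ n ih =>
    intro P hP
    let e : MvPolynomial (Fin (n + 1)) k ≃+* Polynomial (MvPolynomial (Fin n) k) :=
      (MvPolynomial.finSuccEquiv k n).toRingEquiv
    let Q : Ideal (Polynomial (MvPolynomial (Fin n) k)) := P.comap e.symm
    have hQ : Q.IsMaximal := Ideal.comap_isMaximal_of_equiv e.symm
    have hp : (Q.under (MvPolynomial (Fin n) k)).IsMaximal :=
      Polynomial.isMaximal_comap_C_of_isJacobsonRing Q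
    have hLO : Q.LiesOver (Q.under (MvPolynomial (Fin n) k)) := ⟨rfl⟩
    have h1 := Polynomial.height_eq_height_add_one (Q.under (MvPolynomial (Fin n) k)) Q
    rw [ih _ hp] at h1
    have h2 : Q.height = P.height := e.symm.height_comap P
    rw [← h2, h1]
    rfl

/-- **All maximal ideals of a finitely generated domain have the same height.** -/
theorem exists_height (k : Type*) [Field k] (A : Type*) [CommRing A] [IsDomain A] [Algebra k A]
    [Algebra.FiniteType k A] : ∃ n : ℕ, ∀ P : Ideal A, P.IsMaximal → P.height = n := by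
  obtain ⟨n, g, hinj, hint⟩ := exists_integral_inj_algHom_of_fg k A
  refine ⟨n, fun P hP => ?_⟩
  let _ : Algebra (MvPolynomial (Fin n) k) A := g.toRingHom.toAlgebra
  have hI : Algebra.IsIntegral (MvPolynomial (Fin n) k) A := ⟨hint⟩
  have hF : FaithfulSMul (MvPolynomial (Fin n) k) A :=
    (faithfulSMul_iff_algebraMap_injective _ _).2 hinj
  have hN : IsNoetherianRing A := Algebra.FiniteType.isNoetherianRing k A
  have hGD : Algebra.HasGoingDown (MvPolynomial (Fin n) k) A := inferInstance
  have hp : (P.under (MvPolynomial (Fin n) k)).IsMaximal :=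
    Ideal.isMaximal_comap_of_isIntegral_of_isMaximal P
  have hprime : P.IsPrime := hP.isPrime
  have h1 := Ideal.height_eq_height_add_of_liesOver_of_hasGoingDown
    (P.under (MvPolynomial (Fin n) k)) P
  rw [height_mvPolynomial k n _ hp] at h1
  have h2 : (P.map (Ideal.Quotient.mk
      ((P.under (MvPolynomial (Fin n) k)).map (algebraMap (MvPolynomial (Fin n) k) A)))).height =
      0 := by
    have hle : (P.under (MvPolynomial (Fin n) k)).map (algebraMap (MvPolynomial (Fin n) k) A) ≤ P :=
      Ideal.map_comap_le
    have hpr : (P.map (Ideal.Quotient.mk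
        ((P.under (MvPolynomial (Fin n) k)).map
          (algebraMap (MvPolynomial (Fin n) k) A)))).IsPrime :=
      Ideal.map_isPrime_of_surjective Ideal.Quotient.mk_surjective (by rwa [Ideal.mk_ker])
    rw [Ideal.height_eq_zero_iff]
    refine ⟨⟨hpr, bot_le⟩, fun Q hQ hQP => ?_⟩
    have hQ1 : Q.IsPrime := hQ.1
    -- the preimage of `Q` is a prime ideal between the extension of `p` and `P`
    have h3 : Q.comap (Ideal.Quotient.mk
        ((P.under (MvPolynomial (Fin n) k)).map (algebraMap (MvPolynomial (Fin n) k) A))) ≤ P := by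
      intro x hx
      have hx' := hQP hx
      rwa [Ideal.mem_quotient_iff_mem hle] at hx'
    have h4 : (P.under (MvPolynomial (Fin n) k)) ≤
        (Q.comap (Ideal.Quotient.mk ((P.under (MvPolynomial (Fin n) k)).map
          (algebraMap (MvPolynomial (Fin n) k) A)))).under (MvPolynomial (Fin n) k) := by
      intro x hx
      change Ideal.Quotient.mk _ (algebraMap _ A x) ∈ Q
      rw [Ideal.Quotient.eq_zero_iff_mem.2 (Ideal.mem_map_of_mem _ hx)]
      exact Q.zero_mem
    have h5 : P ≤ Q.comap (Ideal.Quotient.mk
        ((P.under (MvPolynomial (Fin n) k)).map (algebraMap (MvPolynomial (Fin n) k) A))) := by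
      by_contra hne
      obtain ⟨x, hxP, hxQ⟩ := Set.not_subset.1 hne
      have h6 := Ideal.comap_lt_comap_of_integral_mem_sdiff (R := MvPolynomial (Fin n) k) h3
        ⟨hxP, hxQ⟩ (Algebra.IsIntegral.isIntegral x)
      exact absurd (h4.trans_lt h6) (lt_irrefl _)
    exact Ideal.map_le_iff_le_comap.2 h5
  rw [h2, add_zero] at h1
  exact h1

end Vale.Agent.P280.H93
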