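import Vale.Agent.P280.H93.Const
import Vale.Agent.P280.T.Tools2

/-!
Each tangent vector of the cone at a non-vertex is the value of a derivation of the ring.
-/

namespace Vale.Agent.P280.H93

open Matrix Vale.Agent.P280.T KaehlerDifferential

section lift
variable {R : Type} [CommRing R] [Algebra ℂ R]

/-- A tangent vector is a functional on the differentials. -/
theorem exists_lift {q : R →ₐ[ℂ] ℂ} {w : R →ₗ[ℂ] ℂ} (hw : IsTangent q w) :
    ∃ φ : Ω[R⁄ℂ] →ₗ[ℂ] ℂ, (∀ (a : R) (ω : Ω[R⁄ℂ]), φ (a • ω) = q a * φ ω) ∧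
      ∀ h, φ (KaehlerDifferential.D ℂ R h) = w h := by
  let _ : Module R ℂ := Module.compHom ℂ q.toRingHom
  have hsm : ∀ (a : R) (c : ℂ), a • c = q a * c := fun a c => rfl
  have _ : IsScalarTower ℂ R ℂ := ⟨fun c a z => by
    rw [hsm, hsm, map_smul, smul_eq_mul, smul_eq_mul, mul_assoc]⟩
  have h1 : w 1 = 0 := by
    have h2 := hw 1 1
    rw [mul_one, map_one q, one_mul] at h2
    linear_combination -h2
  let δ : Derivation ℂ R ℂ :=
    { toLinearMap := w
      map_one_eq_zero' := h1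
      leibniz' := fun a b => hw a b }
  refine ⟨δ.liftKaehlerDifferential.restrictScalars ℂ, fun a ω => ?_, fun h => ?_⟩
  · rw [LinearMap.restrictScalars_apply, LinearMap.restrictScalars_apply, map_smul, hsm]
  · rw [LinearMap.restrictScalars_apply, Derivation.liftKaehlerDifferential_comp_D]
    rfl

/-- Functionals on the differentials give tangent vectors. -/
theorem isTangent_functional {q : R →ₐ[ℂ] ℂ} {φ : Ω[R⁄ℂ] →ₗ[ℂ] ℂ}
    (hφ : ∀ (a : R) (ω : Ω[R⁄ℂ]), φ (a • ω) = q a * φ ω) :
    IsTangent q (φ.comp (KaehlerDifferential.D ℂ R).toLinearMap) := by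
  intro a b
  change φ (KaehlerDifferential.D ℂ R (a * b)) = q a * φ (KaehlerDifferential.D ℂ R b) +
    q b * φ (KaehlerDifferential.D ℂ R a)
  rw [Derivation.leibniz, map_add, hφ, hφ]

/-- A functional on the differentials is determined on exact differentials. -/
theorem functional_eq_zero {q : R →ₐ[ℂ] ℂ} {φ : Ω[R⁄ℂ] →ₗ[ℂ] ℂ}
    (hφ : ∀ (a : R) (ω : Ω[R⁄ℂ]), φ (a • ω) = q a * φ ω)
    (h0 : ∀ h, φ (KaehlerDifferential.D ℂ R h) = 0) (ω : Ω[R⁄ℂ]) : φ ω = 0 := by
  have hω : ω ∈ Submodule.span R (Set.range (KaehlerDifferential.D ℂ R)) := by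
    rw [KaehlerDifferential.span_range_derivation]
    trivial
  induction hω using Submodule.span_induction with
  | mem x hx =>
    obtain ⟨h, rfl⟩ := hx
    exact h0 h
  | zero => exact map_zero φ
  | add x y _ _ hx hy => rw [map_add, hx, hy, add_zero]
  | smul a x _ hx => rw [hφ, hx, mul_zero]

/-- Local generators of the differentials (Nakayama's lemma). -/
theorem exists_localizer [Algebra.FiniteType ℂ R] {q : R →ₐ[ℂ] ℂ} {N : ℕ} (u : Fin N → R)
    (hu : ∀ v : R →ₗ[ℂ] ℂ, IsTangent q v → (∀ j, v (u j) = 0) → v = 0) :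
    ∃ s : R, q s = 1 ∧ ∀ ω : Ω[R⁄ℂ],
      s • ω ∈ Submodule.span R (Set.range fun j => KaehlerDifferential.D ℂ R (u j)) := by
  let L : Submodule R (Ω[R⁄ℂ]) :=
    Submodule.span R (Set.range fun j => KaehlerDifferential.D ℂ R (u j))
  let I : Ideal R := RingHom.ker q
  have hfg : (⊤ : Submodule R (Ω[R⁄ℂ])).FG := Module.Finite.fg_top
  have htop : (⊤ : Submodule R (Ω[R⁄ℂ])) ≤ L ⊔ I • ⊤ := by
    intro x _
    by_contra hx
    let L' : Submodule ℂ (Ω[R⁄ℂ]) := (L ⊔ I • ⊤).restrictScalars ℂ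
    have hx' : L'.mkQ x ≠ 0 := by
      intro h
      apply hx
      exact (Submodule.Quotient.mk_eq_zero L').1 h
    obtain ⟨ψ, hψ⟩ : ∃ ψ : Module.Dual ℂ (Ω[R⁄ℂ] ⧸ L'), ψ (L'.mkQ x) ≠ 0 := by
      by_contra hcon
      push Not at hcon
      exact hx' ((Module.forall_dual_apply_eq_zero_iff ℂ _).1 hcon)
    let φ : Ω[R⁄ℂ] →ₗ[ℂ] ℂ := ψ.comp L'.mkQ
    have hφL : ∀ ω ∈ L ⊔ I • ⊤, φ ω = 0 := by
      intro ω hω
      change ψ (L'.mkQ ω) = 0
      have h1 : L'.mkQ ω = 0 := (Submodule.Quotient.mk_eq_zero L').2 hω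
      rw [h1, map_zero]
    have hφ : ∀ (a : R) (ω : Ω[R⁄ℂ]), φ (a • ω) = q a * φ ω := by
      intro a ω
      have h1 : a • ω = (a - algebraMap ℂ R (q a)) • ω + (q a) • ω := by
        rw [sub_smul, algebraMap_smul, sub_add_cancel]
      have h2 : (a - algebraMap ℂ R (q a)) • ω ∈ L ⊔ I • (⊤ : Submodule R (Ω[R⁄ℂ])) := by
        apply Submodule.mem_sup_right
        refine Submodule.smul_mem_smul ?_ Submodule.mem_top
        change q (a - algebraMap ℂ R (q a)) = 0
        rw [map_sub, AlgHom.commutes]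
        exact sub_self _
      rw [h1, map_add, hφL _ h2, zero_add, map_smul, smul_eq_mul]
    have h3 := hu _ (isTangent_functional hφ) (fun j => by
      change φ (KaehlerDifferential.D ℂ R (u j)) = 0
      exact hφL _ (Submodule.mem_sup_left (Submodule.subset_span ⟨j, rfl⟩)))
    exact hψ (functional_eq_zero hφ (fun h => LinearMap.congr_fun h3 h) x)
  obtain ⟨s, hs, hsL⟩ := Submodule.exists_sub_one_mem_and_smul_le_of_fg_of_le_sup hfg le_top htop
  refine ⟨s, ?_, fun ω => ?_⟩
  · have h1 : q (s - 1) = 0 := hs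
    rw [map_sub, map_one] at h1
    exact sub_eq_zero.1 h1
  · apply hsL
    exact Submodule.smul_mem_pointwise_smul _ _ _ trivial

end lift

section main
variable {M : Type} [AddCommGroup M] [DecidableEq M]
variable {R : Type} [CommRing R] [Algebra ℂ R] {𝒜 : ℕ × M → Submodule ℂ R}

/-- Homogeneous coordinates of the tangent space. -/
theorem exists_coords [GradedAlgebra 𝒜] {q : R →ₐ[ℂ] ℂ} {N : ℕ}
    (hfin : FiniteDimensional ℂ (tangentSpace q))
    (hN : Module.finrank ℂ (tangentSpace q) = N) :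
    ∃ u : Fin N → R, (∀ j, SetLike.IsHomogeneousElem 𝒜 (u j)) ∧
      ∀ v : R →ₗ[ℂ] ℂ, IsTangent q v → (∀ j, v (u j) = 0) → v = 0 := by
  obtain ⟨b, hb, hli⟩ := exists_fin_family (tangentSpace q) (tangentSpace q : Set (R →ₗ[ℂ] ℂ))
    (Submodule.span_eq _) hN
  obtain ⟨u, hu, hdet⟩ := exists_det_ne b hli _ (span_homogeneous 𝒜)
  refine ⟨u, hu, fun v hv hv0 => ?_⟩
  have hli' : LinearIndependent ℂ (fun i => (⟨b i, hb i⟩ : tangentSpace q)) := by
    rw [Fintype.linearIndependent_iff]
    intro g hg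
    apply Fintype.linearIndependent_iff.1 hli
    have h2 := congrArg (fun w : tangentSpace q => (w : R →ₗ[ℂ] ℂ)) hg
    simpa [Submodule.coe_sum] using h2
  have htop := hli'.span_eq_top_of_card_eq_finrank' (by rw [Fintype.card_fin, hN])
  have hmem : (⟨v, hv⟩ : tangentSpace q) ∈ Submodule.span ℂ (Set.range
      (fun i => (⟨b i, hb i⟩ : tangentSpace q))) := by
    rw [htop]
    trivial
  obtain ⟨c, hc⟩ := (Submodule.mem_span_range_iff_exists_fun ℂ).1 hmem
  have hcv : ∀ x, v x = ∑ i, c i * b i x := by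
    intro x
    have h7 := congrArg (fun w : tangentSpace q => (w : R →ₗ[ℂ] ℂ) x) hc
    simpa [Submodule.coe_sum, LinearMap.sum_apply] using h7.symm
  have h3 : Matrix.vecMul c (Matrix.of fun i j => b i (u j)) = 0 := by
    funext j
    have := hv0 j
    rw [hcv] at this
    exact this
  have h5 := Matrix.eq_zero_of_vecMul_eq_zero hdet h3
  apply LinearMap.ext
  intro x
  rw [hcv, LinearMap.zero_apply]
  refine Finset.sum_eq_zero fun i _ => ?_
  rw [h5]
  simp

/-- **Each tangent vector at a non-vertex is the value of a derivation.** -/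
theorem exists_der [GradedAlgebra 𝒜] (hX : IsTorusManifold 𝒜) {q : R →ₐ[ℂ] ℂ}
    (hq : ¬ IsVertex 𝒜 q) {v : R →ₗ[ℂ] ℂ} (hv : IsTangent q v) :
    ∃ D : Derivation ℂ R R, ∀ h, q (D h) = v h := by
  have hdom := hX.domain
  have hft := hX.finiteType
  obtain ⟨N, hN⟩ := exists_dim hX
  obtain ⟨u, -, hu⟩ := exists_coords (𝒜 := 𝒜) (hN q hq).1 (hN q hq).2
  obtain ⟨s, hs, hsL⟩ := exists_localizer u hu
  -- an element of positive degree
  obtain ⟨r1, hr1, hr1v⟩ : ∃ r1 : R, q r1 ≠ 0 ∧ ∀ z : R →ₐ[ℂ] ℂ, z r1 ≠ 0 → ¬ IsVertex 𝒜 z := by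
    unfold IsVertex at hq
    push Not at hq
    obtain ⟨d, m, hd, h, hh, hne⟩ := hq
    exact ⟨h, hne, fun z hz hvz => hz (hvz d m hd h hh)⟩
  have hs0 : s ≠ 0 := by
    rintro rfl
    rw [map_zero] at hs
    exact zero_ne_one hs
  have hr10 : r1 ≠ 0 := by
    rintro rfl
    exact hr1 (map_zero q)
  -- independence
  have hli : LinearIndependent R (fun j => KaehlerDifferential.D ℂ R (u j)) := by
    rw [Fintype.linearIndependent_iff]
    intro c hc j
    by_contra hcj
    have hne : c j * s * r1 ∉ (⊥ : Ideal R).radical := by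
      intro hmem
      obtain ⟨n, hn⟩ := hmem
      have h1 : (c j * s * r1) ^ n = 0 := hn
      exact (pow_ne_zero n (mul_ne_zero (mul_ne_zero hcj hs0) hr10)) h1
    obtain ⟨z, -, hz⟩ := exists_point hne
    rw [map_mul, map_mul] at hz
    have hz1 : z r1 ≠ 0 := right_ne_zero_of_mul hz
    have hz2 : z s ≠ 0 := right_ne_zero_of_mul (left_ne_zero_of_mul hz)
    have hz3 : z (c j) ≠ 0 := left_ne_zero_of_mul (left_ne_zero_of_mul hz)
    have hzv := hr1v z hz1
    obtain ⟨hfin, hrk⟩ := hN z hzv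
    let ev : tangentSpace z →ₗ[ℂ] (Fin N → ℂ) :=
      (LinearMap.pi fun j => LinearMap.applyₗ (u j)).comp (tangentSpace z).subtype
    have hev : ∀ (w : tangentSpace z) j, ev w j = (w : R →ₗ[ℂ] ℂ) (u j) := fun w j => rfl
    have hinj : Function.Injective ev := by
      rw [← LinearMap.ker_eq_bot, LinearMap.ker_eq_bot']
      intro w hw
      obtain ⟨φ, hφ, hφw⟩ := exists_lift w.2
      have hφL : ∀ ω ∈ Submodule.span R (Set.range fun j => KaehlerDifferential.D ℂ R (u j)),
          φ ω = 0 := by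
        intro ω hω
        induction hω using Submodule.span_induction with
        | mem x hx =>
          obtain ⟨j, rfl⟩ := hx
          change φ (KaehlerDifferential.D ℂ R (u j)) = 0
          rw [hφw, ← hev, hw]
          rfl
        | zero => exact map_zero φ
        | add x y _ _ hx hy => rw [map_add, hx, hy, add_zero]
        | smul a x _ hx => rw [hφ, hx, mul_zero]
      apply Subtype.ext
      apply LinearMap.ext
      intro h
      have h1 := hφL _ (hsL (KaehlerDifferential.D ℂ R h))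
      rw [hφ, hφw] at h1
      exact (mul_eq_zero.1 h1).resolve_left hz2
    have hsurj : Function.Surjective ev := by
      rw [← LinearMap.injective_iff_surjective_of_finrank_eq_finrank]
      · exact hinj
      · rw [hrk, Module.finrank_fin_fun]
    obtain ⟨w, hw⟩ := hsurj (Pi.single j 1)
    obtain ⟨φ, hφ, hφw⟩ := exists_lift w.2
    apply hz3
    have h1 := congrArg φ hc
    rw [map_zero, map_sum] at h1
    rw [Finset.sum_eq_single j] at h1
    · rw [hφ, hφw, ← hev, hw, Pi.single_eq_same, mul_one] at h1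
      exact h1
    · intro i _ hij
      rw [hφ, hφw, ← hev, hw, Pi.single_eq_of_ne hij, mul_zero]
    · intro h
      exact absurd (Finset.mem_univ j) h
  -- the dual derivations
  let P : Ω[R⁄ℂ] →ₗ[R] Submodule.span R (Set.range fun j => KaehlerDifferential.D ℂ R (u j)) :=
    (LinearMap.lsmul R (Ω[R⁄ℂ]) s).codRestrict _ hsL
  let Di : Fin N → Derivation ℂ R R := fun i =>
    (((Finsupp.lapply i : (Fin N →₀ R) →ₗ[R] R).comp hli.repr).comp P).compDer
      (KaehlerDifferential.D ℂ R)
  have hDi : ∀ i j, Di i (u j) = s * (Finsupp.single j (1 : R) : Fin N →₀ R) i := by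
    intro i j
    change (hli.repr (P (KaehlerDifferential.D ℂ R (u j)))) i = _
    have h1 : P (KaehlerDifferential.D ℂ R (u j)) =
        s • (⟨KaehlerDifferential.D ℂ R (u j), Submodule.subset_span ⟨j, rfl⟩⟩ :
          Submodule.span R (Set.range fun j => KaehlerDifferential.D ℂ R (u j))) := rfl
    rw [h1, map_smul, hli.repr_eq_single j _ rfl]
    rfl
  have hsum : ∀ x, (∑ i, v (u i) • Di i) x = ∑ i, v (u i) • Di i x := by
    intro x
    have h8 := congrFun (map_sum (Derivation.coeFnAddMonoidHom (R := ℂ) (A := R) (M := R))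
      (fun i => v (u i) • Di i) Finset.univ) x
    rw [Finset.sum_apply] at h8
    exact h8
  refine ⟨∑ i, v (u i) • Di i, ?_⟩
  have h0 : valAt q (∑ i, v (u i) • Di i) - v = 0 := by
    apply hu
    · exact (tangentSpace q).sub_mem (isTangent_valAt q _) hv
    · intro j
      rw [LinearMap.sub_apply, valAt_apply, hsum, map_sum, Finset.sum_eq_single j]
      · rw [hDi, Finsupp.single_eq_same, mul_one, map_smul, hs, smul_eq_mul, mul_one, sub_self]
      · intro i _ hij
        rw [hDi, Finsupp.single_eq_of_ne hij, mul_zero, smul_zero, map_zero]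
      · intro h
        exact absurd (Finset.mem_univ j) h
  intro h
  have h9 := LinearMap.congr_fun h0 h
  rw [LinearMap.sub_apply, LinearMap.zero_apply, sub_eq_zero] at h9
  exact h9

end main

end Vale.Agent.P280.H93
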