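import Vale.Agent.P280.H93.E0

/-!
Homogeneous derivations, after a shift of the degree, with a given value of given weight at a fixed
point.
-/

namespace Vale.Agent.P280.H93

open Vale.Agent.P280.T

section shift
variable {M : Type} [AddCommGroup M] [DecidableEq M]
variable {R : Type} [CommRing R] [Algebra ℂ R] (𝒜 : ℕ × M → Submodule ℂ R) [GradedAlgebra 𝒜]

theorem proj_mem (i : ℕ × M) (y : R) : GradedAlgebra.proj 𝒜 i y ∈ 𝒜 i := by
  rw [GradedAlgebra.proj_apply]
  exact SetLike.coe_mem _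

/-- The components of `y` of weight `w + k ν` and degree `k ≤ n`, moved to degree `n`. -/
noncomputable def tr (r0 : R) (ν : M) (n : ℕ) (w : M) : R →ₗ[ℂ] R :=
  ∑ k ∈ Finset.range (n + 1),
    (LinearMap.mulLeft ℂ (r0 ^ (n - k))).comp (GradedAlgebra.proj 𝒜 (k, w + k • ν))

theorem tr_apply (r0 : R) (ν : M) (n : ℕ) (w : M) (y : R) : tr 𝒜 r0 ν n w y =
    ∑ k ∈ Finset.range (n + 1), r0 ^ (n - k) * GradedAlgebra.proj 𝒜 (k, w + k • ν) y := by
  rw [tr, LinearMap.sum_apply]
  rfl

variable {𝒜}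

theorem pow_mem {r0 : R} {ν : M} (h0 : r0 ∈ 𝒜 (1, ν)) (n : ℕ) : r0 ^ n ∈ 𝒜 (n, n • ν) := by
  have h := SetLike.pow_mem_graded n h0
  have e : n • ((1, ν) : ℕ × M) = (n, n • ν) := Prod.ext (by simp) rfl
  rw [e] at h
  exact h

theorem tr_mem {r0 : R} {ν : M} (h0 : r0 ∈ 𝒜 (1, ν)) (n : ℕ) (w : M) (y : R) :
    tr 𝒜 r0 ν n w y ∈ 𝒜 (n, w + n • ν) := by
  rw [tr_apply]
  refine Submodule.sum_mem _ fun k hk => ?_
  have hk' : k ≤ n := Nat.lt_succ_iff.1 (Finset.mem_range.1 hk)
  have h := SetLike.mul_mem_graded (pow_mem h0 (n - k)) (proj_mem 𝒜 (k, w + k • ν) y)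
  have e : (((n - k, (n - k) • ν) : ℕ × M) + (k, w + k • ν)) = (n, w + n • ν) := by
    refine Prod.ext (Nat.sub_add_cancel hk') ?_
    change (n - k) • ν + (w + k • ν) = w + n • ν
    rw [add_left_comm, ← add_smul, Nat.sub_add_cancel hk']
  rw [e] at h
  exact h

/-- Multiplication by a homogeneous element commutes with the projections. -/
theorem tr_mul {r0 : R} {ν : M} {d : ℕ} {m : M} {b : R} (hb : b ∈ 𝒜 (d, m)) (n : ℕ) (w : M)
    (y : R) : tr 𝒜 r0 ν (d + n) (w + m - d • ν) (b * y) = b * tr 𝒜 r0 ν n w y := by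
  rw [tr_apply, tr_apply, Nat.add_assoc, Finset.sum_range_add, Finset.mul_sum]
  have h1 : ∑ k ∈ Finset.range d, r0 ^ (d + n - k) *
      GradedAlgebra.proj 𝒜 (k, w + m - d • ν + k • ν) (b * y) = 0 := by
    refine Finset.sum_eq_zero fun k hk => ?_
    have hkd : k < d := Finset.mem_range.1 hk
    have h2 : GradedAlgebra.proj 𝒜 (k, w + m - d • ν + k • ν) (b * y) = 0 := by
      rw [GradedAlgebra.proj_apply]
      induction y using DirectSum.Decomposition.inductionOn 𝒜 with
      | zero => simp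
      | add y y' hy hy' =>
        rw [mul_add, DirectSum.decompose_add, DirectSum.add_apply, Submodule.coe_add, hy, hy',
          add_zero]
      | @homogeneous i y =>
        refine DirectSum.decompose_of_mem_ne 𝒜 (SetLike.mul_mem_graded hb y.2) ?_
        intro h
        have h3 : d + i.1 = k := congrArg Prod.fst h
        omega
    rw [h2, mul_zero]
  rw [h1, zero_add]
  refine Finset.sum_congr rfl fun k _ => ?_
  have e1 : d + n - (d + k) = n - k := by omega
  have e2 : ((d + k, w + m - d • ν + (d + k) • ν) : ℕ × M) = (d, m) + (k, w + k • ν) := by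
    refine Prod.ext rfl ?_
    change w + m - d • ν + (d + k) • ν = m + (w + k • ν)
    rw [add_smul]
    abel
  rw [e1, e2, GradedAlgebra.proj_apply, GradedAlgebra.proj_apply,
    DirectSum.coe_decompose_mul_add_of_left_mem 𝒜 hb]
  ring

/-- At a fixed point nothing is lost. -/
theorem tr_eval {r0 : R} {ν : M} {x : R →ₐ[ℂ] ℂ} (hx : IsFixed 𝒜 x ν) (hr : x r0 = 1) (y : R) :
    ∃ n0 : ℕ, ∀ n, n0 ≤ n → x (tr 𝒜 r0 ν n 0 y) = x y := by
  induction y using DirectSum.Decomposition.inductionOn 𝒜 with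
  | zero => exact ⟨0, fun n _ => by rw [map_zero]⟩
  | add y y' hy hy' =>
    obtain ⟨n0, h0⟩ := hy
    obtain ⟨n1, h1⟩ := hy'
    refine ⟨max n0 n1, fun n hn => ?_⟩
    rw [map_add, map_add, map_add, h0 n ((le_max_left _ _).trans hn),
      h1 n ((le_max_right _ _).trans hn)]
  | @homogeneous i y =>
    refine ⟨i.1, fun n hn => ?_⟩
    rw [tr_apply, map_sum, Finset.sum_eq_single i.1]
    · rw [map_mul, map_pow, hr, one_pow, one_mul, GradedAlgebra.proj_apply]
      by_cases hi : i.2 = i.1 • ν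
      · have e : ((i.1, 0 + i.1 • ν) : ℕ × M) = i := Prod.ext rfl (by rw [zero_add, hi])
        rw [e, DirectSum.decompose_of_mem_same 𝒜 y.2]
      · rw [DirectSum.decompose_of_mem_ne 𝒜 y.2, map_zero]
        · by_contra h
          exact hi (hx i.1 i.2 y y.2 (Ne.symm h))
        · intro h
          apply hi
          have h2 := congrArg Prod.snd h
          rw [h2]
          exact zero_add _
    · intro k _ hk
      rw [map_mul, GradedAlgebra.proj_apply, DirectSum.decompose_of_mem_ne 𝒜 y.2, map_zero,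
        mul_zero]
      intro h
      exact hk (congrArg Prod.fst h).symm
    · intro h
      exact absurd (Finset.mem_range.2 (Nat.lt_succ_of_le hn)) h

/-- The homogeneous part of a derivation, with a shift `C` of the degree. -/
theorem exists_tr_der (r0 : R) (ν : M) (D : Derivation ℂ R R) (C : ℕ) (χ : M) : ∃ E : Derivation ℂ R R, ∀ (d : ℕ) (m : M), ∀ h ∈ 𝒜 (d, m),
      E h = tr 𝒜 r0 ν (d + C) (m - d • ν - χ) (D h) := by
  let F : (i : ℕ × M) → 𝒜 i →ₗ[ℂ] R := fun i =>
    ((tr 𝒜 r0 ν (i.1 + C) (i.2 - i.1 • ν - χ)).comp D.toLinearMap).comp (𝒜 i).subtype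
  let G : R →ₗ[ℂ] R := (DirectSum.toModule ℂ (ℕ × M) R F).comp
    (DirectSum.decomposeLinearEquiv 𝒜).toLinearMap
  have hG : ∀ i : ℕ × M, ∀ a ∈ 𝒜 i, G a = tr 𝒜 r0 ν (i.1 + C) (i.2 - i.1 • ν - χ) (D a) := by
    intro i a ha
    change DirectSum.toModule ℂ (ℕ × M) R F (DirectSum.decompose 𝒜 a) = _
    rw [DirectSum.decompose_of_mem _ ha]
    have h8 := DirectSum.toModule_lof (M := fun i => 𝒜 i) (φ := F) ℂ i (⟨a, ha⟩ : 𝒜 i)
    exact h8
  have hleib : ∀ a b : R, G (a * b) = a * G b + b * G a := by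
    intro a b
    induction a using DirectSum.Decomposition.inductionOn 𝒜 with
    | zero => simp
    | add a a' ha ha' =>
      rw [add_mul, map_add, map_add, ha, ha']
      ring
    | @homogeneous i a =>
      induction b using DirectSum.Decomposition.inductionOn 𝒜 with
      | zero => simp
      | add b b' hb hb' =>
        rw [mul_add, map_add, map_add, hb, hb']
        ring
      | @homogeneous j b =>
        have hab : (a : R) * (b : R) ∈ 𝒜 (i + j) := SetLike.mul_mem_graded a.2 b.2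
        rw [hG _ _ hab, hG _ _ a.2, hG _ _ b.2, Derivation.leibniz, map_add, smul_eq_mul,
          smul_eq_mul]
        have ha : (a : R) ∈ 𝒜 (i.1, i.2) := a.2
        have hb : (b : R) ∈ 𝒜 (j.1, j.2) := b.2
        refine congrArg₂ (· + ·) ?_ ?_
        · rw [← tr_mul ha]
          have e1 : (i + j).1 + C = i.1 + (j.1 + C) := Nat.add_assoc _ _ _
          have e2 : (i + j).2 - (i + j).1 • ν - χ = j.2 - j.1 • ν - χ + i.2 - i.1 • ν := by
            rw [Prod.fst_add, Prod.snd_add, add_smul]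
            abel
          rw [e1, e2]
        · rw [← tr_mul hb]
          have e1 : (i + j).1 + C = j.1 + (i.1 + C) := by
            rw [Prod.fst_add]
            omega
          have e2 : (i + j).2 - (i + j).1 • ν - χ = i.2 - i.1 • ν - χ + j.2 - j.1 • ν := by
            rw [Prod.fst_add, Prod.snd_add, add_smul]
            abel
          rw [e1, e2]
  refine ⟨{ toLinearMap := G
            map_one_eq_zero' := ?_
            leibniz' := ?_ }, ?_⟩
  · have := hleib 1 1
    rw [mul_one, one_mul] at this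
    linear_combination -this
  · intro a b
    exact hleib a b
  · intro d m h hh
    exact hG (d, m) h hh

/-- **A tangent vector of weight `χ` at a fixed point is the value of homogeneous derivations.** -/
theorem exists_shift_der (hX : IsTorusManifold 𝒜) {x : R →ₐ[ℂ] ℂ} (hxv : ¬ IsVertex 𝒜 x) {ν : M}
    (hx : IsFixed 𝒜 x ν) {χ : M} {v : R →ₗ[ℂ] ℂ} (hv : IsTangent x v) (hw : HasWeight 𝒜 ν χ v) :
    ∃ C0 : ℕ, ∀ C, C0 ≤ C → ∃ E : Derivation ℂ R R,
      (∀ (d : ℕ) (m : M), ∀ h ∈ 𝒜 (d, m), E h ∈ 𝒜 (d + C, m + C • ν - χ)) ∧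
      ∀ h, x (E h) = v h := by
  obtain ⟨D, hD⟩ := exists_der hX hxv hv
  obtain ⟨f, hf, hfx⟩ := exists_deg_one_ne hX.gen hxv hx
  -- a section with value one
  obtain ⟨r0, hr0, hr1⟩ : ∃ r0 ∈ 𝒜 (1, ν), x r0 = 1 :=
    ⟨(x f)⁻¹ • f, Submodule.smul_mem _ _ hf, by
      rw [map_smul, smul_eq_mul, inv_mul_cancel₀ hfx]⟩
  obtain ⟨N, hN⟩ := exists_dim hX
  obtain ⟨u, hu, hsep⟩ := exists_coords (𝒜 := 𝒜) (hN x hxv).1 (hN x hxv).2
  have hb : ∀ j, ∃ n0 : ℕ, ∀ n, n0 ≤ n → x (tr 𝒜 r0 ν n 0 (D (u j))) = x (D (u j)) :=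
    fun j => tr_eval hx hr1 _
  choose n0 hn0 using hb
  refine ⟨∑ j, n0 j, fun C hC => ?_⟩
  obtain ⟨E, hE⟩ := exists_tr_der (𝒜 := 𝒜) r0 ν D C χ
  have hmem : ∀ (d : ℕ) (m : M), ∀ h ∈ 𝒜 (d, m), E h ∈ 𝒜 (d + C, m + C • ν - χ) := by
    intro d m h hh
    rw [hE d m h hh]
    have h1 := tr_mem hr0 (d + C) (m - d • ν - χ) (D h)
    have e : m - d • ν - χ + (d + C) • ν = m + C • ν - χ := by
      rw [add_smul]
      abel
    rw [e] at h1
    exact h1
  refine ⟨E, hmem, ?_⟩
  have h0 : valAt x E - v = 0 := by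
    apply hsep
    · exact (tangentSpace x).sub_mem (isTangent_valAt x _) hv
    · intro j
      rw [LinearMap.sub_apply, valAt_apply, sub_eq_zero]
      obtain ⟨⟨d, m⟩, hj⟩ := hu j
      by_cases hm : m = d • ν + χ
      · rw [hE d m _ hj]
        have e : m - d • ν - χ = 0 := by
          rw [hm]
          abel
        rw [e, hn0 j, hD]
        have h2 : n0 j ≤ ∑ j, n0 j := Finset.single_le_sum (fun _ _ => Nat.zero_le _)
          (Finset.mem_univ j)
        omega
      · have h1 : v (u j) = 0 := by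
          by_contra h
          exact hm (hw d m _ hj h)
        rw [h1]
        by_contra h
        apply hm
        have h2 := hx _ _ _ (hmem d m _ hj) h
        rw [add_smul] at h2
        have h3 : m = m + C • ν - χ - C • ν + χ := by abel
        rw [h3, h2]
        abel
  intro h
  have h9 := LinearMap.congr_fun h0 h
  rw [LinearMap.sub_apply, LinearMap.zero_apply, sub_eq_zero] at h9
  exact h9

end shift

end Vale.Agent.P280.H93
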